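import Mathlib
import Vale.Agent.Lib.P227L.Nonsmooth3

/-!
# The second variation form of the logarithmic Brunn-Minkowski inequality at all unconditional bodies
-/

open MeasureTheory Set
open scoped Pointwise
open Vale.Agent.Lib.P227L

namespace Vale.Agent.Results.P227.A0000_SecondVarUnconditional

/-- Let `K ⊂ ℝⁿ` be any convex body invariant under all coordinate reflections, with support
function `h`; no smoothness is assumed.

* For every origin-symmetric compact convex set `M` with support function `g` there is a polynomial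
  `p` of degree at most `n` with `|K + τ M| = p(τ)` for `τ ≥ 0`, the function
  `τ ↦ |W[h + τ g² / h]|` has a right derivative `a'` at `0`, and
  `|K| * (a' + p''(0)) ≤ p'(0) ^ 2`, where `p''(0) = 2 * p.coeff 2` and `p'(0) = p.coeff 1`.
* More generally, for two such sets `M₁`, `M₂`, with polynomials `p₁`, `p₂`, `p₃` of
  `|K + τ M₁|`, `|K + τ M₂|`, `|K + τ (M₁ + M₂)|`, and with `a'` the right derivative at `0` of
  `τ ↦ |W[h + τ (g₁ - g₂)² / h]|`, one has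
  `|K| * (a' + 2 * (2 * p₁.coeff 2 + 2 * p₂.coeff 2 - p₃.coeff 2)) ≤ (p₁.coeff 1 - p₂.coeff 1) ^ 2`. -/
theorem result {n : ℕ} (hn : 2 ≤ n) {K : Set (Fin n → ℝ)} {h : (Fin n → ℝ) → ℝ}
    (hKc : IsCompact K) (hKv : Convex ℝ K) (hKu : ∀ i, ∀ x ∈ K, refl i x ∈ K)
    (hKi : (interior K).Nonempty) (hh : IsSupportFn K h) :
    0 < (volume K).toReal ∧
    (∀ (M : Set (Fin n → ℝ)) (g : (Fin n → ℝ) → ℝ), IsCompact M → Convex ℝ M →
      (∀ x ∈ M, -x ∈ M) → IsSupportFn M g →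
      ∃ p : Polynomial ℝ, p.natDegree ≤ n ∧
        (∀ τ : ℝ, 0 ≤ τ → (volume (K + τ • M)).toReal = p.eval τ) ∧
        ∃ a', HasDerivWithinAt
            (fun τ : ℝ => (volume (wulff fun u => h u + τ * (g u ^ 2 / h u))).toReal) a' (Ici 0) 0 ∧
          (volume K).toReal * (a' + 2 * p.coeff 2) ≤ p.coeff 1 ^ 2) ∧
    (∀ (M₁ M₂ : Set (Fin n → ℝ)) (g₁ g₂ : (Fin n → ℝ) → ℝ), IsCompact M₁ → Convex ℝ M₁ →
      (∀ x ∈ M₁, -x ∈ M₁) → IsCompact M₂ → Convex ℝ M₂ → (∀ x ∈ M₂, -x ∈ M₂) →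
      IsSupportFn M₁ g₁ → IsSupportFn M₂ g₂ →
      ∃ p₁ p₂ p₃ : Polynomial ℝ, p₁.natDegree ≤ n ∧ p₂.natDegree ≤ n ∧ p₃.natDegree ≤ n ∧
        (∀ τ : ℝ, 0 ≤ τ → (volume (K + τ • M₁)).toReal = p₁.eval τ) ∧
        (∀ τ : ℝ, 0 ≤ τ → (volume (K + τ • M₂)).toReal = p₂.eval τ) ∧
        (∀ τ : ℝ, 0 ≤ τ → (volume (K + τ • (M₁ + M₂))).toReal = p₃.eval τ) ∧
        ∃ a', HasDerivWithinAt
            (fun τ : ℝ => (volume (wulff fun u => h u + τ * ((g₁ u - g₂ u) ^ 2 / h u))).toReal)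
            a' (Ici 0) 0 ∧
          (volume K).toReal * (a' + 2 * (2 * p₁.coeff 2 + 2 * p₂.coeff 2 - p₃.coeff 2))
            ≤ (p₁.coeff 1 - p₂.coeff 1) ^ 2) := by
  haveI : Nonempty (Fin n) := ⟨⟨0, by omega⟩⟩
  refine ⟨?_, fun M g hc hv hs hg => ?_, fun M₁ M₂ g₁ g₂ c1 v1 s1 c2 v2 s2 g1 g2 => ?_⟩
  · apply ENNReal.toReal_pos _ hKc.measure_lt_top.ne
    have h1 := isOpen_interior.measure_pos (volume : Measure (Fin n → ℝ)) hKi
    exact (lt_of_lt_of_le h1 (measure_mono interior_subset)).ne'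
  · simpa using second_variation_single hKc hKv hKu hKi hc hv hs hh hg
  · simpa using second_variation hKc hKv hKu hKi c1 v1 s1 c2 v2 s2 hh g1 g2

end Vale.Agent.Results.P227.A0000_SecondVarUnconditional
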